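import Vale.Agent.P345.Pell.Master

/-!
# P345: only `log₂ H / k` master certificates lie in a box `[0, H]`
-/

open Pell Finset

namespace Vale.Agent.P345

theorem sum_div_two_pow (M : ℕ) : ∀ K, (∑ l ∈ Icc 1 K, M / 2 ^ l) + M / 2 ^ K ≤ M
  | 0 => by simp
  | K + 1 => by
    rw [Finset.sum_Icc_succ_top (by omega : 1 ≤ K + 1)]
    have h := sum_div_two_pow M K
    have e : M / 2 ^ (K + 1) = M / 2 ^ K / 2 := by rw [pow_succ, Nat.div_div_eq_div_mul]
    omega

theorem le_log_succ {c x H : ℕ} (hc : 2 ≤ c) (h : c ^ (x - 1) ≤ H) :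
    x ≤ Nat.log 2 H + 1 := by
  have := Nat.le_log_of_pow_le one_lt_two ((Nat.pow_le_pow_left hc _).trans h)
  omega

/-- The certificates in the box are at most `log₂ H / k` in number. -/
theorem card_master_le {N k H : ℕ} (hN : 2 ≤ N) (hk : 4 * k ≤ N) {T : Type*} (S : Set T)
    (g : T → MasterVar → ℕ) (hg : Set.InjOn g S)
    (hS : ∀ x ∈ S, AllEq (masterEqs N (g x)) ∧ g x .v ≤ H ∧ g x .t ≤ H) :
    k * S.ncard ≤ Nat.log 2 H := by
  classical
  set L := Nat.log 2 H
  have hN1 : 1 < N + 2 := by omega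
  set Y := yn hN1 N
  have hYN : N ≤ Y := yn_ge_n hN1 N
  set M := (L + 1) / Y
  have info : ∀ x ∈ S, ∃ j i, MasterInfo N (g x) j i := fun x hx =>
    masterInfo_of_eqs hN (hS x hx).1
  choose! jf ifn hinfo using info
  let F : T → Σ _ : ℕ, ℕ := fun x => ⟨jf x / Y, ifn x / (g x .b - 1)⟩
  have hmem : ∀ x ∈ S, Y ∣ jf x ∧
      F x ∈ (Icc 1 M).sigma fun l => range (M / 2 ^ l + 1) := by
    intro x hx
    have hi := hinfo x hx
    obtain ⟨_, hY, -⟩ := hi.Y_eq
    obtain ⟨_, hu, hv⟩ := hi.j_eq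
    obtain ⟨b1, -, ht⟩ := hi.i_eq
    have hd : Y ∣ jf x := by have := hi.dvd; rwa [hY] at this
    obtain ⟨l, hl⟩ := hd
    have hl0 : 1 ≤ l := by
      rcases Nat.eq_zero_or_pos l with h | h
      · have := hi.j_pos; simp [hl, h] at this
      · exact h
    have hvH := (hS x hx).2.1
    have hjL : jf x ≤ L + 1 := le_log_succ (c := N + 2) (by omega) (le_trans (by
      rw [hv]
      obtain ⟨j', hj'⟩ : ∃ j', jf x = j' + 1 := ⟨jf x - 1, by have := hi.j_pos; omega⟩
      simpa [hj'] using pow_le_yn_succ hN1 j') hvH)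
    have hiL : ifn x ≤ L + 1 := by
      rcases Nat.eq_zero_or_pos (ifn x) with h | h
      · omega
      · refine le_log_succ (c := g x .b) (by omega) (le_trans ?_ (hS x hx).2.2)
        rw [ht]
        obtain ⟨i', hi'⟩ : ∃ i', ifn x = i' + 1 := ⟨ifn x - 1, by omega⟩
        simpa [hi'] using pow_le_yn_succ b1 i'
    have hlM : l ≤ M :=
      (Nat.le_div_iff_mul_le (show 0 < Y by omega)).2 (by rw [mul_comm, ← hl]; exact hjL)
    refine ⟨⟨l, hl⟩, ?_⟩
    simp only [F, mem_sigma, mem_Icc, mem_range, Nat.lt_succ_iff]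
    rw [hl, Nat.mul_div_cancel_left _ (show 0 < Y by omega)]
    refine ⟨⟨hl0, hlM⟩, ?_⟩
    have hub : Y * 2 ^ l ≤ g x .b - 1 := by
      have h1 : Y ≤ 2 ^ ((Y - 1) * l) := calc
        Y ≤ 2 ^ (Y - 1) := by have := @Nat.lt_two_pow_self (Y - 1); omega
        _ ≤ 2 ^ ((Y - 1) * l) := Nat.pow_le_pow_right two_pos (Nat.le_mul_of_pos_right _ hl0)
      have h2 : Y * 2 ^ l ≤ g x .u := calc
        Y * 2 ^ l ≤ 2 ^ ((Y - 1) * l) * 2 ^ l := Nat.mul_le_mul_right _ h1
        _ = 2 ^ (Y * l) := by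
          rw [← pow_add]; congr 1
          obtain ⟨Y', hY'⟩ : ∃ Y', Y = Y' + 1 := ⟨Y - 1, by omega⟩
          rw [hY', Nat.add_sub_cancel]; ring
        _ ≤ (N + 2) ^ (Y * l) := Nat.pow_le_pow_left (by omega) _
        _ ≤ _ := by rw [hu, hl]; exact xn_ge_a_pow hN1 _
      have := hi.u_lt
      omega
    calc ifn x / (g x .b - 1) ≤ ifn x / (Y * 2 ^ l) :=
          Nat.div_le_div_left hub (Nat.mul_pos (show 0 < Y by omega) (Nat.two_pow_pos l))
      _ ≤ (L + 1) / (Y * 2 ^ l) := Nat.div_le_div_right hiL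
      _ = M / 2 ^ l := (Nat.div_div_eq_div_mul _ _ _).symm
  have hinj : Set.InjOn F S := by
    intro x hx x' hx' he
    simp only [F, Sigma.mk.injEq, heq_eq_eq] at he
    obtain ⟨e1, e2⟩ := he
    have hi := hinfo x hx
    have hi' := hinfo x' hx'
    have ej : jf x = jf x' := by
      rw [← Nat.div_mul_cancel (hmem x hx).1, e1, Nat.div_mul_cancel (hmem x' hx').1]
    rw [← ej] at hi'
    have eb := master_b hN (hS x hx).1 (hS x' hx').1 hi hi'
    have ei : ifn x = ifn x' := by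
      have a1 := hi.i_mod
      have a2 := hi'.i_mod
      rw [← eb] at a2 e2
      rw [← Nat.div_add_mod (ifn x) (g x .b - 1), ← Nat.div_add_mod (ifn x') (g x .b - 1),
        a1, a2, e2]
    rw [← ei] at hi'
    exact hg hx hx' (master_ext hN (hS x hx).1 (hS x' hx').1 hi hi')
  have hcard : S.ncard ≤ 2 * M := by
    refine (Set.ncard_le_ncard_of_injOn F (fun x hx => ?_) hinj
      (finite_toSet _) (t := ↑((Icc 1 M).sigma fun l => range (M / 2 ^ l + 1)))).trans ?_
    · exact (hmem x hx).2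
    · rw [Set.ncard_coe_finset, card_sigma]
      simp only [card_range, sum_add_distrib, sum_const, Nat.card_Icc, smul_eq_mul, mul_one,
        Nat.add_sub_cancel]
      have := sum_div_two_pow M M
      have h' := le_trans (Nat.le_add_right _ _) this
      simp only [M] at h' ⊢
      omega
  have hM : M * Y ≤ L + 1 := Nat.div_mul_le_self _ _
  rcases Nat.eq_zero_or_pos M with h | h
  · have : S.ncard = 0 := by omega
    simp [this]
  · have h1 : k * S.ncard ≤ k * (2 * M) := Nat.mul_le_mul_left k hcard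
    have h2 : 4 * k * M ≤ L + 1 := le_trans
      (by rw [mul_comm M Y]; exact Nat.mul_le_mul_right M (by omega)) hM
    have h3 : 4 * k * M = 2 * (k * (2 * M)) := by ring
    omega

end Vale.Agent.P345
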