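import Mathlib

/-!
# P345: size bounds on Pell pairs, and the index of a small pair in a large base
-/

open Pell

namespace Vale.Agent.P345

variable {a b : ℕ} (a1 : 1 < a) (b1 : 1 < b)

theorem xn_yn_le_pow : ∀ i, xn a1 i ≤ (2 * a) ^ i ∧ a * yn a1 i ≤ (2 * a) ^ i
  | 0 => by simp
  | i + 1 => by
    obtain ⟨hx, hy⟩ := xn_yn_le_pow i
    have hd : (a * a - 1) * yn a1 i ≤ a * (a * yn a1 i) := by
      rw [← mul_assoc]; gcongr; omega
    constructor
    · calc xn a1 (i + 1) = xn a1 i * a + (a * a - 1) * yn a1 i := xn_succ a1 i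
        _ ≤ (2 * a) ^ i * a + a * (2 * a) ^ i :=
          add_le_add (Nat.mul_le_mul_right a hx) (hd.trans (Nat.mul_le_mul_left a hy))
        _ = (2 * a) ^ (i + 1) := by ring
    · calc a * yn a1 (i + 1) = a * (xn a1 i + a * yn a1 i) := by rw [yn_succ]; ring
        _ ≤ a * ((2 * a) ^ i + (2 * a) ^ i) := by gcongr
        _ = (2 * a) ^ (i + 1) := by ring

theorem yn_le_pow (i : ℕ) : yn a1 i ≤ (2 * a) ^ i :=
  le_trans (Nat.le_mul_of_pos_left _ (by omega)) (xn_yn_le_pow a1 i).2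

theorem xn_le_pow (i : ℕ) : xn a1 i ≤ (2 * a) ^ i := (xn_yn_le_pow a1 i).1

theorem pow_le_yn_succ (i : ℕ) : a ^ i ≤ yn a1 (i + 1) := by
  rw [yn_succ]; exact le_add_right (xn_ge_a_pow a1 i)

theorem pell_add_eq (i : ℕ) :
    xn a1 i * xn a1 i + yn a1 i * yn a1 i = 1 + a * a * yn a1 i * yn a1 i := by
  have h : xn a1 i * xn a1 i - (a * a - 1) * yn a1 i * yn a1 i = 1 := pell_eq a1 i
  have e : (a * a - 1) * yn a1 i * yn a1 i + yn a1 i * yn a1 i = a * a * yn a1 i * yn a1 i := by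
    obtain ⟨c, hc⟩ : ∃ c, a * a = c + 1 := ⟨a * a - 1, by
      have : 0 < a * a := by positivity
      omega⟩
    rw [hc, Nat.add_sub_cancel]; ring
  omega

theorem exists_index {x y : ℕ} (h : x * x + y * y = 1 + a * a * y * y) :
    ∃ i, x = xn a1 i ∧ y = yn a1 i := by
  refine eq_pell a1 (show x * x - (a * a - 1) * y * y = 1 from ?_)
  obtain ⟨c, hc⟩ : ∃ c, a * a = c + 1 := ⟨a * a - 1, by
    have : 0 < a * a := by positivity
    omega⟩
  rw [hc, Nat.add_sub_cancel]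
  rw [hc] at h
  have : (c + 1) * y * y = c * y * y + y * y := by ring
  omega

theorem xn_yn_mono_base (hab : a ≤ b) : ∀ i, xn a1 i ≤ xn b1 i ∧ yn a1 i ≤ yn b1 i
  | 0 => by simp
  | i + 1 => by
    obtain ⟨hx, hy⟩ := xn_yn_mono_base hab i
    refine ⟨?_, ?_⟩
    · calc xn a1 (i + 1) = xn a1 i * a + (a * a - 1) * yn a1 i := xn_succ a1 i
        _ ≤ xn b1 i * b + (b * b - 1) * yn b1 i := by gcongr
        _ = xn b1 (i + 1) := (xn_succ b1 i).symm
    · rw [yn_succ, yn_succ]; gcongr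

/-- A Pell pair below the master value has a small index. -/
theorem index_le {N i : ℕ} (hN : 1 < N + 2) (hc : 2 * N + 4 ≤ a)
    (h : yn a1 i ≤ yn hN N) : i ≤ N + 1 := by
  rcases i with _ | i
  · omega
  have h1 : a ^ i ≤ a ^ N := calc
    a ^ i ≤ yn a1 (i + 1) := pow_le_yn_succ a1 i
    _ ≤ yn hN N := h
    _ ≤ (2 * (N + 2)) ^ N := yn_le_pow hN N
    _ ≤ a ^ N := Nat.pow_le_pow_left (by omega) N
  have := (Nat.pow_le_pow_iff_right a1).1 h1
  omega

/-- The pin: below the master value the index is read off from `y` modulo `a - 1`. -/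
theorem index_pin {N i k r : ℕ} (hN : 1 < N + 2) (hc : 2 * N + 4 ≤ a)
    (h : yn a1 i ≤ yn hN N) (hk : k < a - 1) (hr : yn a1 i = k + (a - 1) * r) : i = k := by
  have hi : i < a - 1 := by have := index_le a1 hN hc h; omega
  have h1 : yn a1 i % (a - 1) = i % (a - 1) := yn_modEq_a_sub_one a1 i
  rw [hr, Nat.add_mul_mod_self_left, Nat.mod_eq_of_lt hi, Nat.mod_eq_of_lt hk] at h1
  exact h1.symm

/-- A pair with a small index lies below the master value. -/
theorem yn_le_master {N i : ℕ} (hN : 1 < N + 2) (hi : i < N) (h : (2 * a) ^ i ≤ (N + 2) ^ (N - 1)) :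
    yn a1 i ≤ yn hN N := by
  refine ((yn_le_pow a1 i).trans h).trans ?_
  obtain ⟨M, rfl⟩ : ∃ M, N = M + 1 := ⟨N - 1, by omega⟩
  simpa using pow_le_yn_succ hN M

end Vale.Agent.P345
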