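import Vale.Agent.P345.Pell.Pow

/-!
# P345: the master certificate `Y = y_N(N + 2)` and the two free indices in it
-/

open Pell

namespace Vale.Agent.P345

/-- The witnesses of the master certificate. -/
inductive MasterVar where
  | Y | sN | X | u | v | q | s | t | b | sb | q1 | q2 | q3 | q4
deriving DecidableEq

instance : Fintype MasterVar :=
  ⟨{.Y, .sN, .X, .u, .v, .q, .s, .t, .b, .sb, .q1, .q2, .q3, .q4},
    fun x => by cases x <;> decide⟩

section Eqs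

variable {R : Type*} [CommSemiring R]

/-- The equations certifying (X, Y) = (x_N, y_N) in the base `N + 2`. -/
def masterEqs (N : R) (w : MasterVar → R) : List (R × R) :=
  [(w .X * w .X + w .Y * w .Y, 1 + (N + 2) * (N + 2) * w .Y * w .Y),
   (N + w .sN, w .Y),
   (w .u * w .u + w .v * w .v, 1 + (N + 2) * (N + 2) * w .v * w .v),
   (w .v, 4 * (w .Y * w .Y) * (w .q + 1)),
   (w .s * w .s + w .t * w .t, 1 + w .b * w .b * w .t * w .t),
   (w .b + w .sb + 1, N + 2 + 4 * w .Y * w .u),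
   (w .b, N + 2 + w .u * w .q1),
   (w .b, 1 + 4 * w .Y * w .q2),
   (w .s, w .X + w .u * w .q3),
   (w .t + w .q4, N + w .b * w .q4)]

theorem masterEqs_map {S : Type*} [CommSemiring S] (f : R →+* S) (N : R) (w : MasterVar → R) :
    masterEqs (f N) (fun i => f (w i)) = (masterEqs N w).map fun e => (f e.1, f e.2) := by
  simp [masterEqs, map_add, map_mul, map_ofNat]

end Eqs

variable {N : ℕ}

theorem exists_master (hN1 : 1 < N + 2) (hN : 2 ≤ N) :
    ∃ w : MasterVar → ℕ, w .Y = yn hN1 N ∧ AllEq (masterEqs N w) := by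
  set X := xn hN1 N
  set Y := yn hN1 N
  have hNY : N ≤ Y := yn_ge_n hN1 N
  have hY0 : 0 < Y := by omega
  set m := 4 * (N * Y)
  set u := xn hN1 m
  set v := yn hN1 m
  have hYv : 4 * (Y * Y) ∣ v := by
    have h1 : ∀ t, 2 * yn hN1 t ∣ yn hN1 (t + t) := fun t =>
      ⟨xn hN1 t, by rw [yn_add]; ring⟩
    have hm : m = N * Y + N * Y + (N * Y + N * Y) := by simp only [m]; ring
    calc 4 * (Y * Y) ∣ 4 * yn hN1 (N * Y) := Nat.mul_dvd_mul_left 4 (ysq_dvd_yy hN1 N)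
      _ = 2 * (2 * yn hN1 (N * Y)) := by ring
      _ ∣ 2 * yn hN1 (N * Y + N * Y) := Nat.mul_dvd_mul_left 2 (h1 _)
      _ ∣ yn hN1 (N * Y + N * Y + (N * Y + N * Y)) := h1 _
      _ = v := by simp only [v, hm]
  obtain ⟨c, hc⟩ := hYv
  have hm0 : 0 < m := by positivity
  have hv0 : 0 < v := strictMono_y hN1 hm0
  obtain ⟨q, rfl⟩ : ∃ q, c = q + 1 := ⟨c - 1, by
    rcases Nat.eq_zero_or_pos c with h | h
    · simp [h] at hc; omega
    · omega⟩
  have hu0 : 0 < u := x_pos hN1 m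
  have hco : u.Coprime (4 * Y) :=
    (xy_coprime hN1 m).coprime_dvd_right ⟨Y * (q + 1), by show v = _; rw [hc]; ring⟩
  obtain ⟨b0, hb0, hb1⟩ := Nat.chineseRemainder hco (N + 2) 1
  set M := u * (4 * Y)
  have hM : 0 < M := by positivity
  set b := N + 2 + (b0 + (N + 2) * (M - 1)) % M with hb
  have hbM : b ≡ b0 [MOD M] := by
    have h : b ≡ N + 2 + (b0 + (N + 2) * (M - 1)) [MOD M] :=
      Nat.ModEq.add_left _ (Nat.mod_modEq _ _)
    refine h.trans ?_
    have e : N + 2 + (b0 + (N + 2) * (M - 1)) = b0 + (N + 2) * M := by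
      obtain ⟨M', hM'⟩ : ∃ M', M = M' + 1 := ⟨M - 1, by omega⟩
      rw [hM', Nat.add_sub_cancel]; ring
    rw [e]
    exact ((Nat.modEq_zero_iff_dvd.2 (dvd_mul_left M (N + 2))).add_left b0)
  have b1 : 1 < b := by omega
  have hbu : N + 2 ≡ b [MOD u] := ((hbM.of_dvd (dvd_mul_right _ _)).trans hb0).symm
  have hb4 : 1 ≡ b [MOD 4 * Y] := ((hbM.of_dvd (dvd_mul_left _ _)).trans hb1).symm
  obtain ⟨q1, hq1⟩ := (Nat.modEq_iff_dvd' (show N + 2 ≤ b by omega)).1 hbu
  obtain ⟨q2, hq2⟩ := (Nat.modEq_iff_dvd' b1.le).1 hb4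
  have hXs : X ≤ xn b1 N := (xn_yn_mono_base hN1 b1 (by omega) N).1
  obtain ⟨q3, hq3⟩ := (Nat.modEq_iff_dvd' hXs).1 (xy_modEq_of_modEq hN1 b1 hbu N).1
  obtain ⟨q4, hq4⟩ := (Nat.modEq_iff_dvd' (yn_ge_n b1 N)).1 (yn_modEq_a_sub_one b1 N).symm
  refine ⟨fun
    | .Y => Y | .sN => Y - N | .X => X | .u => u | .v => v | .q => q | .s => xn b1 N
    | .t => yn b1 N | .b => b | .sb => N + 2 + 4 * Y * u - (b + 1) | .q1 => q1 | .q2 => q2
    | .q3 => q3 | .q4 => q4, rfl, ?_⟩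
  simp only [masterEqs, allEq_cons, allEq_nil, and_true]
  refine ⟨pell_add_eq hN1 N, by omega, pell_add_eq hN1 m, hc, pell_add_eq b1 N, ?_, by omega,
    by omega, by omega, ?_⟩
  · have := Nat.mod_lt (b0 + (N + 2) * (M - 1)) hM
    have e : M = 4 * Y * u := by simp only [M]; ring
    omega
  · have := yn_ge_n b1 N
    obtain ⟨b', hb'⟩ : ∃ b', b = b' + 1 := ⟨b - 1, by omega⟩
    rw [show b - 1 = b' by omega] at hq4
    have h : yn b1 N = N + b' * q4 := by omega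
    rw [h, hb']; ring

/-- What a solution of the master equations satisfies: the value is pinned and the witnesses
are functions of the index `j` of `v` and the index `i` of `t`. -/
structure MasterInfo (N : ℕ) (w : MasterVar → ℕ) (j i : ℕ) : Prop where
  Y_eq : ∃ h : 1 < N + 2, w .Y = yn h N ∧ w .X = xn h N
  j_eq : ∃ h : 1 < N + 2, w .u = xn h j ∧ w .v = yn h j
  i_eq : ∃ h : 1 < w .b, w .s = xn h i ∧ w .t = yn h i
  dvd : w .Y ∣ j
  j_pos : 0 < j
  u_lt : w .u < w .b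
  i_mod : i % (w .b - 1) = N % (w .b - 1)

theorem masterInfo_of_eqs (hN : 2 ≤ N) {w : MasterVar → ℕ} (h : AllEq (masterEqs N w)) :
    ∃ j i, MasterInfo N w j i := by
  simp only [masterEqs, allEq_cons, allEq_nil, and_true] at h
  obtain ⟨e1, e2, e3, e4, e5, e6, e7, e8, e9, e10⟩ := h
  have hN1 : 1 < N + 2 := by omega
  have hY0 : 0 < w .Y := by omega
  have b1 : 1 < w .b := by omega
  obtain ⟨j, hu, hv⟩ := exists_index hN1 e3
  obtain ⟨i, hs, ht⟩ := exists_index b1 e5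
  have sub : ∀ {a x y : ℕ}, 1 < a → x * x + y * y = 1 + a * a * y * y →
      x * x - (a * a - 1) * y * y = 1 := fun {a x y} a1 h => by
    obtain ⟨c, hc⟩ : ∃ c, a * a = c + 1 := ⟨a * a - 1, by
      have : 0 < a * a := by positivity
      omega⟩
    rw [hc, Nat.add_sub_cancel]
    rw [hc] at h
    have : (c + 1) * y * y = c * y * y + y * y := by ring
    omega
  have hv0 : 0 < w .v := by
    have : 0 < 4 * (w .Y * w .Y) * (w .q + 1) := by positivity
    omega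
  have hb4 : w .b ≡ 1 [MOD 4 * w .Y] := by rw [e8]; simp [Nat.ModEq, Nat.add_mul_mod_self_left]
  have htb : w .t ≡ N [MOD w .b - 1] := by
    obtain ⟨b', hb'⟩ : ∃ b', w .b = b' + 1 := ⟨w .b - 1, by omega⟩
    rw [hb', Nat.add_mul, one_mul] at e10
    rw [show w .t = N + b' * w .q4 by omega, show w .b - 1 = b' by omega]
    simp [Nat.ModEq, Nat.add_mul_mod_self_left]
  have hb4' : 4 * w .Y ∣ w .b - 1 := ⟨w .q2, by omega⟩
  obtain ⟨a1, hX, hY⟩ := matiyasevic.2 ⟨hN1, show N ≤ w .Y by omega, Or.inr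
    ⟨w .u, w .v, w .s, w .t, w .b, sub hN1 e1, sub hN1 e3, sub b1 e5, b1, hb4,
      (by rw [e7]; simp [Nat.ModEq, Nat.add_mul_mod_self_left]), hv0,
      ⟨4 * (w .q + 1), by rw [e4]; ring⟩,
      (by rw [e9]; simp [Nat.ModEq, Nat.add_mul_mod_self_left]), htb.of_dvd hb4'⟩⟩
  have hu0 : 0 < w .u := hu ▸ x_pos hN1 j
  have hj0 : 0 < j := by
    rcases Nat.eq_zero_or_pos j with h | h
    · subst h; simp [hv] at hv0
    · exact h
  have hdvd : w .Y ∣ j := by
    rw [← hY]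
    refine dvd_of_ysq_dvd hN1 ?_
    rw [hY, ← hv]; exact ⟨4 * (w .q + 1), by rw [e4]; ring⟩
  have hub : w .u < w .b := by
    rcases Nat.eq_zero_or_pos (w .q1) with h | h
    · exfalso
      have h1 : N + 1 = 4 * w .Y * w .q2 := by rw [h] at e7; omega
      rcases Nat.eq_zero_or_pos (w .q2) with h2 | h2
      · simp [h2] at h1
      · have : 4 * w .Y ≤ 4 * w .Y * w .q2 := Nat.le_mul_of_pos_right _ h2
        omega
    · have : w .u ≤ w .u * w .q1 := Nat.le_mul_of_pos_right _ h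
      omega
  refine ⟨j, i, ⟨⟨hN1, hY.symm, hX.symm⟩, ⟨hN1, hu, hv⟩, ⟨b1, hs, ht⟩, hdvd, hj0, hub, ?_⟩⟩
  exact ((yn_modEq_a_sub_one b1 i).symm.trans (ht ▸ htb))

/-- The base `b` depends on the index `j` only. -/
theorem master_b (_hN : 2 ≤ N) {w w' : MasterVar → ℕ} (h : AllEq (masterEqs N w))
    (h' : AllEq (masterEqs N w')) {j i i' : ℕ} (hi : MasterInfo N w j i)
    (hi' : MasterInfo N w' j i') : w .b = w' .b := by
  obtain ⟨hN1, hY, hX⟩ := hi.Y_eq
  obtain ⟨_, hY', hX'⟩ := hi'.Y_eq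
  obtain ⟨_, hu, hv⟩ := hi.j_eq
  obtain ⟨_, hu', hv'⟩ := hi'.j_eq
  have eY : w' .Y = w .Y := hY'.trans hY.symm
  have eu : w' .u = w .u := hu'.trans hu.symm
  simp only [masterEqs, allEq_cons, allEq_nil, and_true] at h h'
  obtain ⟨e1, e2, e3, e4, e5, e6, e7, e8, e9, e10⟩ := h
  obtain ⟨f1, f2, f3, f4, f5, f6, f7, f8, f9, f10⟩ := h'
  rw [eY] at f6 f8
  rw [eu] at f6 f7
  have hco : (w .u).Coprime (4 * w .Y) := by
    rw [hu]
    exact (xy_coprime hN1 j).coprime_dvd_right ⟨w .Y * (w .q + 1), by rw [← hv, e4]; ring⟩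
  have h1 : w' .b ≡ w .b [MOD w .u] := by
    rw [f7, e7]; simp [Nat.ModEq, Nat.add_mul_mod_self_left]
  have h2 : w' .b ≡ w .b [MOD 4 * w .Y] := by
    rw [f8, e8]; simp [Nat.ModEq, Nat.add_mul_mod_self_left]
  have h3 : w' .b ≡ w .b [MOD w .u * (4 * w .Y)] :=
    (Nat.modEq_and_modEq_iff_modEq_mul hco).1 ⟨h1, h2⟩
  have e : w .u * (4 * w .Y) = 4 * w .Y * w .u := by ring
  refine (h3.eq_of_abs_lt ?_).symm
  rw [abs_lt]; constructor <;> omega

/-- Two solutions with the same indices coincide. -/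
theorem master_ext (hN : 2 ≤ N) {w w' : MasterVar → ℕ} (h : AllEq (masterEqs N w))
    (h' : AllEq (masterEqs N w')) {j i : ℕ} (hi : MasterInfo N w j i)
    (hi' : MasterInfo N w' j i) : w = w' := by
  obtain ⟨hN1, hY, hX⟩ := hi.Y_eq
  obtain ⟨_, hY', hX'⟩ := hi'.Y_eq
  obtain ⟨_, hu, hv⟩ := hi.j_eq
  obtain ⟨_, hu', hv'⟩ := hi'.j_eq
  have eY : w' .Y = w .Y := hY'.trans hY.symm
  have eX : w' .X = w .X := hX'.trans hX.symm
  have eu : w' .u = w .u := hu'.trans hu.symm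
  have ev : w' .v = w .v := hv'.trans hv.symm
  have h₀ := h
  have h₀' := h'
  simp only [masterEqs, allEq_cons, allEq_nil, and_true] at h h'
  obtain ⟨e1, e2, e3, e4, e5, e6, e7, e8, e9, e10⟩ := h
  obtain ⟨f1, f2, f3, f4, f5, f6, f7, f8, f9, f10⟩ := h'
  rw [eY] at f2 f4 f6 f8
  rw [eu] at f6 f7 f9
  rw [ev] at f4
  rw [eX] at f9
  have hY0 : 0 < w .Y := by omega
  have hu0 : 0 < w .u := hu ▸ x_pos hN1 j
  have eq : w' .q = w .q := by
    have := Nat.eq_of_mul_eq_mul_left (show 0 < 4 * (w .Y * w .Y) by positivity) (f4.symm.trans e4)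
    omega
  have eb : w' .b = w .b := (master_b hN h₀ h₀' hi hi').symm
  obtain ⟨b1, hs, ht⟩ := hi.i_eq
  obtain ⟨b1', hs', ht'⟩ := hi'.i_eq
  have es : w' .s = w .s := by rw [hs', hs]; congr 1
  have et : w' .t = w .t := by rw [ht', ht]; congr 1
  rw [eb] at f6 f7 f8 f10
  rw [es] at f9
  rw [et] at f10
  have eq1 : w' .q1 = w .q1 := Nat.eq_of_mul_eq_mul_left hu0 (by omega)
  have eq2 : w' .q2 = w .q2 :=
    Nat.eq_of_mul_eq_mul_left (show 0 < 4 * w .Y by omega) (by omega)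
  have eq3 : w' .q3 = w .q3 := Nat.eq_of_mul_eq_mul_left hu0 (by omega)
  have eq4 : w' .q4 = w .q4 := by
    obtain ⟨b', hb'⟩ : ∃ b', w .b = b' + 1 := ⟨w .b - 1, by omega⟩
    rw [hb', Nat.add_mul, one_mul] at e10 f10
    exact Nat.eq_of_mul_eq_mul_left (show 0 < b' by omega) (by omega)
  funext x; cases x <;> first | (symm; assumption) | omega

end Vale.Agent.P345
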