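import Vale.Agent.P345.Pell.Bounds

/-!
# P345: `m = n ^ k` certified below a master value, with unique witnesses
-/

open Pell

namespace Vale.Agent.P345

/-- The witnesses of one exponential equation. -/
inductive PowVar where
  | A | YA | sA | rA | X | Yk | sY | rY | q | q' | st
deriving DecidableEq

instance : Fintype PowVar :=
  ⟨{.A, .YA, .sA, .rA, .X, .Yk, .sY, .rY, .q, .q', .st}, fun v => by cases v <;> decide⟩

section Eqs

variable {R : Type*} [CommSemiring R]

/-- The equations certifying `m = n ^ k` below the master value `Y = y_N(N + 2)`. -/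
def powEqs (N Y n k m : R) (v : PowVar → R) : List (R × R) :=
  [(v .A * v .A + v .YA * v .YA, 1 + (2 * N + 4) * (2 * N + 4) * v .YA * v .YA),
   (v .YA + v .sA, Y),
   (v .YA, k + n + 1 + (2 * N + 3) * v .rA),
   (v .X * v .X + v .Yk * v .Yk, 1 + v .A * v .A * v .Yk * v .Yk),
   (v .Yk + v .sY, Y),
   (v .Yk + v .rY, k + v .A * v .rY),
   (m + 1 + v .st + n * n + 1, 2 * v .A * n),
   (v .X + (m + 1 + v .st) * v .q + n * v .Yk,
     v .Yk * v .A + m + (m + 1 + v .st) * v .q'),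
   (v .q * v .q', 0)]

theorem powEqs_map {S : Type*} [CommSemiring S] (f : R →+* S) (N Y n k m : R) (v : PowVar → R) :
    powEqs (f N) (f Y) (f n) (f k) (f m) (fun i => f (v i)) =
      (powEqs N Y n k m v).map fun e => (f e.1, f e.2) := by
  simp [powEqs, map_add, map_mul, map_ofNat]

end Eqs

/-- All equations of the list hold. -/
def AllEq {R : Type*} (l : List (R × R)) : Prop := ∀ e ∈ l, e.1 = e.2

@[simp] theorem allEq_nil {R : Type*} : AllEq ([] : List (R × R)) := by simp [AllEq]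

@[simp] theorem allEq_cons {R : Type*} (e : R × R) (l : List (R × R)) :
    AllEq (e :: l) ↔ e.1 = e.2 ∧ AllEq l := by simp [AllEq]

variable {N Y n k m : ℕ}

/-- The indices used by the certificate are small against the master. -/
theorem pow_side (hn : 1 ≤ n) (hN : 4 * (k + n + 2) ^ 2 ≤ N) :
    k + n + 1 < N ∧ k < N ∧ 2 * (k + n + 1) + 1 ≤ N - 1 ∧ (2 * (k + n + 1) + 1) * k ≤ N - 1 ∧
      2 ≤ N := by
  have h1 : 4 * (k + n + 2) ^ 2 =
      4 * (k + n + 2) * k + (4 * (k + n + 2) * n + 8 * (k + n + 2)) := by ring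
  have h2 : (2 * (k + n + 1) + 1) * k ≤ 4 * (k + n + 2) * k := Nat.mul_le_mul_right k (by omega)
  have h3 : 4 * (k + n + 2) ≤ 4 * (k + n + 2) * n := Nat.le_mul_of_pos_right _ (by omega)
  refine ⟨by omega, by omega, by omega, by omega, by omega⟩

theorem exists_pow (hN1 : 1 < N + 2) (hY : Y = yn hN1 N) (hn : 1 ≤ n)
    (hN : 4 * (k + n + 2) ^ 2 ≤ N) (hm : m = n ^ k) :
    ∃ v : PowVar → ℕ, AllEq (powEqs N Y n k m v) := by
  obtain ⟨hjN, hkN, hj1, hjk, h2⟩ := pow_side hn hN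
  set j := k + n + 1 with hj
  have w1 : 1 < 2 * N + 4 := by omega
  set A := xn w1 j with hA
  have hWA : 2 * N + 4 ≤ A := (Nat.le_self_pow (by omega) _).trans (xn_ge_a_pow w1 j)
  have A1 : 1 < A := by omega
  have hYA : yn w1 j ≤ Y := hY ▸ yn_le_master w1 hN1 hjN (by
    calc (2 * (2 * N + 4)) ^ j ≤ ((N + 2) ^ 2) ^ j := Nat.pow_le_pow_left (by nlinarith) j
      _ = (N + 2) ^ (2 * j) := (pow_mul _ _ _).symm
      _ ≤ (N + 2) ^ (N - 1) := Nat.pow_le_pow_right (by omega) (by omega))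
  have hYk : yn A1 k ≤ Y := hY ▸ yn_le_master A1 hN1 hkN (by
    calc (2 * A) ^ k ≤ ((N + 2) * ((N + 2) ^ 2) ^ j) ^ k := by
          refine Nat.pow_le_pow_left (Nat.mul_le_mul (by omega) ?_) k
          exact (xn_le_pow w1 j).trans (Nat.pow_le_pow_left (by nlinarith) j)
      _ = (N + 2) ^ ((2 * j + 1) * k) := by rw [← pow_mul, ← pow_succ', ← pow_mul]
      _ ≤ (N + 2) ^ (N - 1) := Nat.pow_le_pow_right (by omega) hjk)
  obtain ⟨rA, hrA⟩ : ∃ r, yn w1 j = j + (2 * N + 3) * r := by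
    obtain ⟨r, hr⟩ := (Nat.modEq_iff_dvd' (yn_ge_n w1 j)).1 (yn_modEq_a_sub_one w1 j).symm
    exact ⟨r, by rw [show 2 * N + 4 - 1 = 2 * N + 3 by omega] at hr; have := yn_ge_n w1 j; omega⟩
  obtain ⟨rY, hrY⟩ : ∃ r, yn A1 k = k + (A - 1) * r := by
    obtain ⟨r, hr⟩ := (Nat.modEq_iff_dvd' (yn_ge_n A1 k)).1 (yn_modEq_a_sub_one A1 k).symm
    exact ⟨r, by have := yn_ge_n A1 k; omega⟩
  have hrY' : yn A1 k + rY = k + A * rY := by
    obtain ⟨A', hA'⟩ : ∃ A', A = A' + 1 := ⟨A - 1, by omega⟩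
    have h : yn A1 k = k + A' * rY := by rw [hrY, hA', Nat.add_sub_cancel]
    rw [h, hA']; ring
  have hmA : m < A := calc
    m = n ^ k := hm
    _ ≤ (2 * N + 4) ^ k := Nat.pow_le_pow_left (by omega) k
    _ < (2 * N + 4) ^ j := Nat.pow_lt_pow_right (by omega) (by omega)
    _ ≤ A := xn_ge_a_pow w1 j
  have hnA : n ≤ A := by omega
  obtain ⟨st, hst⟩ : ∃ s, m + 1 + s + n * n + 1 = 2 * A * n := by
    refine ⟨2 * A * n - (m + 1 + n * n + 1), ?_⟩
    have h1 : n * n + (A - n) * n = A * n := by rw [← Nat.add_mul, Nat.add_sub_cancel' hnA]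
    have h2' : n + 3 ≤ A := by omega
    have h3 : 3 ≤ (A - n) * n := le_trans (by omega) (Nat.le_mul_of_pos_right (A - n) hn)
    have h4 : A ≤ A * n := Nat.le_mul_of_pos_right A hn
    have h5 : 2 * A * n = A * n + A * n := by ring
    omega
  have hdvd : ((m + 1 + st : ℕ) : ℤ) ∣
      ((yn A1 k : ℤ) * ((A : ℤ) - n) + m - xn A1 k) := by
    have := x_sub_y_dvd_pow A1 n k
    rw [← hm] at this
    simp only [xz, yz] at this
    convert this using 2
    have : ((m + 1 + st + n * n + 1 : ℕ) : ℤ) = ((2 * A * n : ℕ) : ℤ) := by rw [hst]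
    push_cast at this ⊢; linarith
  obtain ⟨c, hc⟩ := hdvd
  refine ⟨fun
    | .A => A | .YA => yn w1 j | .sA => Y - yn w1 j | .rA => rA | .X => xn A1 k
    | .Yk => yn A1 k | .sY => Y - yn A1 k | .rY => rY | .q => c.toNat | .q' => (-c).toNat
    | .st => st, ?_⟩
  simp only [powEqs, allEq_cons, allEq_nil, and_true]
  refine ⟨pell_add_eq w1 j, by omega, hrA, pell_add_eq A1 k, by omega, hrY', hst, ?_, ?_⟩
  · have e : (c.toNat : ℤ) - (-c).toNat = c := by omega
    have : ((xn A1 k + (m + 1 + st) * c.toNat + n * yn A1 k : ℕ) : ℤ) =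
        ((yn A1 k * A + m + (m + 1 + st) * (-c).toNat : ℕ) : ℤ) := by
      push_cast at hc ⊢; linear_combination ((m : ℤ) + 1 + st) * e - hc
    exact_mod_cast this
  · rcases le_total c 0 with h | h
    · simp [Int.toNat_of_nonpos h]
    · simp [Int.toNat_of_nonpos (neg_nonpos.2 h)]

theorem pow_eq_of_cert (hN1 : 1 < N + 2) (hY : Y = yn hN1 N) (hn : 1 ≤ n)
    (hN : 4 * (k + n + 2) ^ 2 ≤ N) {v : PowVar → ℕ} (h : AllEq (powEqs N Y n k m v)) :
    m = n ^ k ∧ ∀ v' : PowVar → ℕ, AllEq (powEqs N Y n k m v') → v' = v := by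
  obtain ⟨hjN, hkN, hj1, hjk, h2⟩ := pow_side hn hN
  have w1 : 1 < 2 * N + 4 := by omega
  have key : ∀ v : PowVar → ℕ, AllEq (powEqs N Y n k m v) →
      v .A = xn w1 (k + n + 1) ∧ v .YA = yn w1 (k + n + 1) ∧
        ∃ A1 : 1 < v .A, v .X = xn A1 k ∧ v .Yk = yn A1 k := by
    intro v hv
    simp only [powEqs, allEq_cons, allEq_nil, and_true] at hv
    obtain ⟨e1, e2, e3, e4, e5, e6, -, -, -⟩ := hv
    obtain ⟨i, hAi, hYi⟩ := exists_index w1 e1
    have hi : i = k + n + 1 := index_pin w1 hN1 le_rfl (by omega) (by omega) (r := v .rA)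
      (by rw [show 2 * N + 4 - 1 = 2 * N + 3 by omega, ← hYi]; exact e3)
    subst hi
    have hWA : 2 * N + 4 ≤ v .A :=
      hAi ▸ (Nat.le_self_pow (by omega) _).trans (xn_ge_a_pow w1 _)
    have A1 : 1 < v .A := by omega
    obtain ⟨i', hX, hYk⟩ := exists_index A1 e4
    obtain ⟨A', hA'⟩ : ∃ A', v .A = A' + 1 := ⟨v .A - 1, by omega⟩
    have e6' : v .Yk = k + A' * v .rY := by rw [hA', Nat.add_mul] at e6; omega
    have hi' : i' = k := index_pin A1 hN1 hWA (by omega) (by omega) (r := v .rY)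
      (by rw [show v .A - 1 = A' by omega, ← hYk]; exact e6')
    exact ⟨hAi, hYi, A1, hi' ▸ hX, hi' ▸ hYk⟩
  obtain ⟨hA, hYA, A1, hX, hYk⟩ := key v h
  have h' := h
  simp only [powEqs, allEq_cons, allEq_nil, and_true] at h'
  obtain ⟨e1, e2, e3, e4, e5, e6, e7, e8, e9⟩ := h'
  have hmk : n ^ k < v .A := hA ▸ calc
    n ^ k ≤ (2 * N + 4) ^ k := Nat.pow_le_pow_left (by omega) k
    _ < (2 * N + 4) ^ (k + n + 1) := Nat.pow_lt_pow_right (by omega) (by omega)
    _ ≤ _ := xn_ge_a_pow w1 _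
  have hm : m = n ^ k := by
    have t_def : ((m + 1 + v .st : ℕ) : ℤ) = 2 * v .A * n - n * n - 1 := by
      have : ((m + 1 + v .st + n * n + 1 : ℕ) : ℤ) = ((2 * v .A * n : ℕ) : ℤ) := by rw [e7]
      push_cast at this ⊢; linarith
    have hd := x_sub_y_dvd_pow A1 n k
    rw [← t_def] at hd
    have hz : ((v .X + (m + 1 + v .st) * v .q + n * v .Yk : ℕ) : ℤ) =
        ((v .Yk * v .A + m + (m + 1 + v .st) * v .q' : ℕ) : ℤ) := by rw [e8]
    push_cast at hz
    have hxz : (xz A1 k : ℤ) = v .X := by rw [hX]; rfl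
    have hyz : (yz A1 k : ℤ) = v .Yk := by rw [hYk]; rfl
    rw [hxz, hyz] at hd
    have hmod : ((m + 1 + v .st : ℕ) : ℤ) ∣ ((n ^ k : ℕ) : ℤ) - m := by
      have : ((n ^ k : ℕ) : ℤ) - m = ((v .Yk : ℤ) * (v .A - n) + ((n ^ k : ℕ) : ℤ) - v .X) -
          ((m + 1 + v .st : ℕ) : ℤ) * ((v .q : ℤ) - v .q') := by
        push_cast; linear_combination hz
      rw [this]; exact dvd_sub hd (dvd_mul_right _ _)
    have hlt : n ^ k < m + 1 + v .st := by
      have h1 : n ≤ v .A := by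
        rw [hA]
        exact le_trans (by omega) ((Nat.le_self_pow (by omega) _).trans (xn_ge_a_pow w1 _))
      rcases Nat.eq_zero_or_pos k with hk0 | hk0
      · subst hk0
        have h4 : n * n ≤ v .A * n := Nat.mul_le_mul_right n h1
        have h5 : v .A ≤ v .A * n := Nat.le_mul_of_pos_right _ hn
        have h6 : 2 * v .A * n = v .A * n + v .A * n := by ring
        have : 2 * N + 4 ≤ v .A :=
          hA ▸ (Nat.le_self_pow (by omega) _).trans (xn_ge_a_pow w1 _)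
        simp only [pow_zero]; omega
      · have := eq_pow_of_pell_lem (y := n) (by omega) hk0.ne' hmk
        rw [← t_def] at this; exact_mod_cast this
    have hme : (n ^ k) % (m + 1 + v .st) = m % (m + 1 + v .st) :=
      (Nat.modEq_iff_dvd.2 hmod).symm
    rw [Nat.mod_eq_of_lt hlt, Nat.mod_eq_of_lt (by omega)] at hme
    exact hme.symm
  refine ⟨hm, fun v' hv' => ?_⟩
  obtain ⟨hA', hYA', A1', hX', hYk'⟩ := key v' hv'
  simp only [powEqs, allEq_cons, allEq_nil, and_true] at hv'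
  obtain ⟨f1, f2, f3, f4, f5, f6, f7, f8, f9⟩ := hv'
  have eA : v' .A = v .A := hA'.trans hA.symm
  have eYA : v' .YA = v .YA := hYA'.trans hYA.symm
  have eX : v' .X = v .X := by rw [hX', hX]; congr 1
  have eYk : v' .Yk = v .Yk := by rw [hYk', hYk]; congr 1
  have esA : v' .sA = v .sA := by omega
  have esY : v' .sY = v .sY := by omega
  have erA : v' .rA = v .rA :=
    Nat.eq_of_mul_eq_mul_left (show 0 < 2 * N + 3 by omega) (by omega)
  have erY : v' .rY = v .rY := by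
    obtain ⟨A', hA1⟩ : ∃ A', v .A = A' + 1 := ⟨v .A - 1, by omega⟩
    rw [eA, eYk, hA1, Nat.add_mul] at f6
    rw [hA1, Nat.add_mul] at e6
    exact Nat.eq_of_mul_eq_mul_left (show 0 < A' by omega) (by omega)
  have est : v' .st = v .st := by rw [eA] at f7; omega
  rw [eX, eYk, eA, est] at f8
  have eq0 : v' .q + v .q' = v .q + v' .q' :=
    Nat.eq_of_mul_eq_mul_left (show 0 < m + 1 + v .st by omega) (by
      simp only [Nat.mul_add]; omega)
  rcases Nat.mul_eq_zero.1 e9 with h0 | h0 <;> rcases Nat.mul_eq_zero.1 f9 with h1 | h1 <;>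
    (funext i; cases i <;> first | assumption | omega)

end Vale.Agent.P345
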